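import Mathlib

/-!
# P052, finite core (module M7), Boolean part

`T3 S a b c` is the coboundary of a function `S` on pairs of colours.  A facet is a 4-set all of
whose triples have `T3 = false`.
-/

namespace Vale.Agent.P052.H23

/-- The three-term sum (coboundary) of a Boolean function on pairs. -/
def T3 (S : Fin 10 → Fin 10 → Bool) (a b c : Fin 10) : Bool := (S a b ^^ S b c) ^^ S a c

/-- All four triples of the 4-tuple are even. -/
def F4 (S : Fin 10 → Fin 10 → Bool) (a b c d : Fin 10) : Prop :=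
  T3 S a b c = false ∧ T3 S a b d = false ∧ T3 S a c d = false ∧ T3 S b c d = false

/-- The hypotheses of the finite core, in a form invariant under relabelling. -/
structure Good (S : Fin 10 → Fin 10 → Bool) : Prop where
  symm : ∀ a b, S a b = S b a
  d : ∀ p : Fin 10 → Fin 10, Function.Injective p → F4 S (p 0) (p 1) (p 2) (p 3) →
    T3 S (p 4) (p 5) (p 6) ≠ T3 S (p 7) (p 8) (p 9)
  e : ∀ p : Fin 10 → Fin 10, Function.Injective p → F4 S (p 0) (p 1) (p 2) (p 3) →
    ¬ F4 S (p 4) (p 5) (p 6) (p 7)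

theorem Good.comp {S : Fin 10 → Fin 10 → Bool} (G : Good S) {q : Fin 10 → Fin 10}
    (hq : Function.Injective q) : Good (fun a b => S (q a) (q b)) where
  symm _ _ := G.symm _ _
  d p hp h := G.d (q ∘ p) (hq.comp hp) h
  e p hp h := G.e (q ∘ p) (hq.comp hp) h

theorem T3_swap12 {S : Fin 10 → Fin 10 → Bool} (G : ∀ a b, S a b = S b a) (a b c : Fin 10) :
    T3 S b a c = T3 S a b c := by
  unfold T3; rw [G b a]; cases S a b <;> cases S b c <;> cases S a c <;> rfl

theorem T3_swap23 {S : Fin 10 → Fin 10 → Bool} (G : ∀ a b, S a b = S b a) (a b c : Fin 10) :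
    T3 S a c b = T3 S a b c := by
  unfold T3; rw [G c b]; cases S a b <;> cases S b c <;> cases S a c <;> rfl

/-- The coboundary identity, with the fourth point as base point. -/
theorem T3_base (S : Fin 10 → Fin 10 → Bool) (a b c d : Fin 10) :
    T3 S a b c = ((T3 S a b d ^^ T3 S b c d) ^^ T3 S a c d) := by
  unfold T3
  cases S a b <;> cases S b c <;> cases S a c <;> cases S a d <;> cases S b d <;> cases S c d <;> rfl

/-- The coboundary identity, with the first point as base point. -/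
theorem T3_base0 (S : Fin 10 → Fin 10 → Bool) (d a b c : Fin 10) :
    T3 S a b c = ((T3 S d a b ^^ T3 S d b c) ^^ T3 S d a c) := by
  unfold T3
  cases S a b <;> cases S b c <;> cases S a c <;> cases S d a <;> cases S d b <;> cases S d c <;> rfl

/-- The four triples of a 4-set have an even number of `true`. -/
theorem T3_cocycle (S : Fin 10 → Fin 10 → Bool) (a b c d : Fin 10) :
    (((T3 S a b c ^^ T3 S a b d) ^^ T3 S a c d) ^^ T3 S b c d) = false := by
  unfold T3
  cases S a b <;> cases S b c <;> cases S a c <;> cases S a d <;> cases S b d <;> cases S c d <;> rfl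

/-- (P2): outside a facet, no 4-set has all its triples of the same parity. -/
theorem p2 {S : Fin 10 → Fin 10 → Bool} (G : Good S) (h : F4 S 0 1 2 3) :
    ¬ (T3 S 4 5 6 = T3 S 4 5 7 ∧ T3 S 4 5 6 = T3 S 4 6 7 ∧ T3 S 4 5 6 = T3 S 5 6 7) := by
  rintro ⟨h1, h2, h3⟩
  have d1 : T3 S 4 5 6 ≠ T3 S 7 8 9 := G.d ![0,1,2,3,4,5,6,7,8,9] (by decide) h
  have d2 : T3 S 4 5 7 ≠ T3 S 6 8 9 := G.d ![0,1,2,3,4,5,7,6,8,9] (by decide) h
  have d3 : T3 S 4 6 7 ≠ T3 S 5 8 9 := G.d ![0,1,2,3,4,6,7,5,8,9] (by decide) h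
  have d4 : T3 S 5 6 7 ≠ T3 S 4 8 9 := G.d ![0,1,2,3,5,6,7,4,8,9] (by decide) h
  have d5 : T3 S 4 5 8 ≠ T3 S 6 7 9 := G.d ![0,1,2,3,4,5,8,6,7,9] (by decide) h
  have e0 : ¬ F4 S 4 5 6 7 := G.e ![0,1,2,3,4,5,6,7,8,9] (by decide) h
  have e1 : ¬ F4 S 4 5 8 9 := G.e ![0,1,2,3,4,5,8,9,6,7] (by decide) h
  have e6 : ¬ F4 S 6 7 8 9 := G.e ![0,1,2,3,6,7,8,9,4,5] (by decide) h
  cases hv : T3 S 4 5 6 with
  | false => exact e0 ⟨hv, h1 ▸ hv, h2 ▸ hv, h3 ▸ hv⟩
  | true =>
    have k7 : T3 S 7 8 9 = false := by rw [hv] at d1; simpa using d1.symm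
    have k6 : T3 S 6 8 9 = false := by rw [← h1, hv] at d2; simpa using d2.symm
    have k5 : T3 S 5 8 9 = false := by rw [← h2, hv] at d3; simpa using d3.symm
    have k4 : T3 S 4 8 9 = false := by rw [← h3, hv] at d4; simpa using d4.symm
    have c1 := T3_cocycle S 4 5 8 9
    have c2 := T3_cocycle S 6 7 8 9
    rw [k4, k5] at c1
    rw [k6, k7] at c2
    cases h8 : T3 S 4 5 8 with
    | false =>
      rw [h8] at c1
      exact e1 ⟨h8, by simpa using c1, k4, k5⟩
    | true =>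
      have h9 : T3 S 6 7 9 = false := by rw [h8] at d5; simpa using d5.symm
      rw [h9] at c2
      exact e6 ⟨by simpa using c2, h9, k6, k7⟩

/-- (P2) for an arbitrary labelling. -/
theorem p2' {S : Fin 10 → Fin 10 → Bool} (G : Good S) (p : Fin 10 → Fin 10)
    (hp : Function.Injective p) (h : F4 S (p 0) (p 1) (p 2) (p 3)) :
    ¬ (T3 S (p 4) (p 5) (p 6) = T3 S (p 4) (p 5) (p 7) ∧
       T3 S (p 4) (p 5) (p 6) = T3 S (p 4) (p 6) (p 7) ∧
       T3 S (p 4) (p 5) (p 6) = T3 S (p 5) (p 6) (p 7)) :=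
  p2 (G.comp hp) h

end Vale.Agent.P052.H23
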