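import Vale.Agent.P052.R2.H23.Core1

namespace Vale.Agent.P052.H23

/-- The four Booleans are not all equal. -/
def ne4 (a b c d : Bool) : Bool := (a ^^ b) || (a ^^ c) || (a ^^ d)

theorem ne4_of {a b c d : Bool} (h : ¬ (a = b ∧ a = c ∧ a = d)) : ne4 a b c d = true := by
  revert h; revert a b c d; decide

theorem p2n {S : Fin 10 → Fin 10 → Bool} (G : Good S) (p : Fin 10 → Fin 10)
    (hp : Function.Injective p) (h : F4 S (p 0) (p 1) (p 2) (p 3)) :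
    ne4 (T3 S (p 4) (p 5) (p 6)) (T3 S (p 4) (p 5) (p 7)) (T3 S (p 4) (p 6) (p 7))
      (T3 S (p 5) (p 6) (p 7)) = true :=
  ne4_of (p2' G p hp h)

theorem four_bool : ∀ g01 g02 g03 g12 g13 g23 f0 f1 f2 f3 : Bool,
    (ne4 g01 g02 g12 ((g01 ^^ g12) ^^ g02) && ne4 g01 g03 g13 ((g01 ^^ g13) ^^ g03) &&
     ne4 g02 g03 g23 ((g02 ^^ g23) ^^ g03) && ne4 g12 g13 g23 ((g12 ^^ g23) ^^ g13) &&
     ne4 (g01 ^^ (f0 ^^ f1)) (g02 ^^ (f0 ^^ f2)) (g12 ^^ (f1 ^^ f2)) ((g01 ^^ g12) ^^ g02) &&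
     ne4 (g01 ^^ (f0 ^^ f1)) (g03 ^^ (f0 ^^ f3)) (g13 ^^ (f1 ^^ f3)) ((g01 ^^ g13) ^^ g03) &&
     ne4 (g02 ^^ (f0 ^^ f2)) (g03 ^^ (f0 ^^ f3)) (g23 ^^ (f2 ^^ f3)) ((g02 ^^ g23) ^^ g03) &&
     ne4 (g12 ^^ (f1 ^^ f2)) (g13 ^^ (f1 ^^ f3)) (g23 ^^ (f2 ^^ f3)) ((g12 ^^ g23) ^^ g13)) = true →
    ((f0 ^^ f1) ^^ (f2 ^^ f3)) = false := by
  decide +kernel

theorem T3_diff (S : Fin 10 → Fin 10 → Bool) (a b x y : Fin 10) :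
    T3 S b x y = (T3 S a x y ^^ ((S a x ^^ S b x) ^^ (S a y ^^ S b y))) := by
  unfold T3
  cases S a x <;> cases S b x <;> cases S a y <;> cases S b y <;> cases S x y <;> rfl

/-- The four-point case of the twin lemma (`0` and `4` are the exchanged points). -/
theorem twin4 {S : Fin 10 → Fin 10 → Bool} (G : Good S) (h : F4 S 0 1 2 3) (h' : F4 S 1 2 3 4) :
    (((S 0 5 ^^ S 4 5) ^^ (S 0 6 ^^ S 4 6)) ^^ ((S 0 7 ^^ S 4 7) ^^ (S 0 8 ^^ S 4 8))) = false := by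
  have a1 := p2n G ![0,1,2,3,4,5,6,7,8,9] (by decide) h
  have a2 := p2n G ![0,1,2,3,4,5,6,8,7,9] (by decide) h
  have a3 := p2n G ![0,1,2,3,4,5,7,8,6,9] (by decide) h
  have a4 := p2n G ![0,1,2,3,4,6,7,8,5,9] (by decide) h
  have b1 := p2n G ![1,2,3,4,0,5,6,7,8,9] (by decide) h'
  have b2 := p2n G ![1,2,3,4,0,5,6,8,7,9] (by decide) h'
  have b3 := p2n G ![1,2,3,4,0,5,7,8,6,9] (by decide) h'
  have b4 := p2n G ![1,2,3,4,0,6,7,8,5,9] (by decide) h'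
  replace a1 : ne4 (T3 S 4 5 6) (T3 S 4 5 7) (T3 S 4 6 7) (T3 S 5 6 7) = true := a1
  replace a2 : ne4 (T3 S 4 5 6) (T3 S 4 5 8) (T3 S 4 6 8) (T3 S 5 6 8) = true := a2
  replace a3 : ne4 (T3 S 4 5 7) (T3 S 4 5 8) (T3 S 4 7 8) (T3 S 5 7 8) = true := a3
  replace a4 : ne4 (T3 S 4 6 7) (T3 S 4 6 8) (T3 S 4 7 8) (T3 S 6 7 8) = true := a4
  replace b1 : ne4 (T3 S 0 5 6) (T3 S 0 5 7) (T3 S 0 6 7) (T3 S 5 6 7) = true := b1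
  replace b2 : ne4 (T3 S 0 5 6) (T3 S 0 5 8) (T3 S 0 6 8) (T3 S 5 6 8) = true := b2
  replace b3 : ne4 (T3 S 0 5 7) (T3 S 0 5 8) (T3 S 0 7 8) (T3 S 5 7 8) = true := b3
  replace b4 : ne4 (T3 S 0 6 7) (T3 S 0 6 8) (T3 S 0 7 8) (T3 S 6 7 8) = true := b4
  rw [T3_diff S 0 4 5 6, T3_diff S 0 4 5 7, T3_diff S 0 4 6 7, T3_base0 S 0 5 6 7] at a1
  rw [T3_diff S 0 4 5 6, T3_diff S 0 4 5 8, T3_diff S 0 4 6 8, T3_base0 S 0 5 6 8] at a2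
  rw [T3_diff S 0 4 5 7, T3_diff S 0 4 5 8, T3_diff S 0 4 7 8, T3_base0 S 0 5 7 8] at a3
  rw [T3_diff S 0 4 6 7, T3_diff S 0 4 6 8, T3_diff S 0 4 7 8, T3_base0 S 0 6 7 8] at a4
  rw [T3_base0 S 0 5 6 7] at b1
  rw [T3_base0 S 0 5 6 8] at b2
  rw [T3_base0 S 0 5 7 8] at b3
  rw [T3_base0 S 0 6 7 8] at b4
  refine four_bool (T3 S 0 5 6) (T3 S 0 5 7) (T3 S 0 5 8) (T3 S 0 6 7) (T3 S 0 6 8) (T3 S 0 7 8)
    _ _ _ _ ?_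
  rw [a1, a2, a3, a4, b1, b2, b3, b4]
  rfl

/-- Twin lemma: if `0123` and `1234` are facets then `S 0 x + S 4 x` is constant outside. -/
theorem twin {S : Fin 10 → Fin 10 → Bool} (G : Good S) (h : F4 S 0 1 2 3) (h' : F4 S 1 2 3 4)
    (x y : Fin 10) (hx : 5 ≤ x) (hy : 5 ≤ y) : (S 0 x ^^ S 4 x) = (S 0 y ^^ S 4 y) := by
  have t9 := twin4 G h h'
  have t8 : (((S 0 5 ^^ S 4 5) ^^ (S 0 6 ^^ S 4 6)) ^^ ((S 0 7 ^^ S 4 7) ^^ (S 0 9 ^^ S 4 9))) = false :=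
    twin4 (G.comp (q := ![0,1,2,3,4,5,6,7,9,8]) (by decide)) h h'
  have t7 : (((S 0 5 ^^ S 4 5) ^^ (S 0 6 ^^ S 4 6)) ^^ ((S 0 9 ^^ S 4 9) ^^ (S 0 8 ^^ S 4 8))) = false :=
    twin4 (G.comp (q := ![0,1,2,3,4,5,6,9,8,7]) (by decide)) h h'
  have t6 : (((S 0 5 ^^ S 4 5) ^^ (S 0 9 ^^ S 4 9)) ^^ ((S 0 7 ^^ S 4 7) ^^ (S 0 8 ^^ S 4 8))) = false :=
    twin4 (G.comp (q := ![0,1,2,3,4,5,9,7,8,6]) (by decide)) h h'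
  have t5 : (((S 0 9 ^^ S 4 9) ^^ (S 0 6 ^^ S 4 6)) ^^ ((S 0 7 ^^ S 4 7) ^^ (S 0 8 ^^ S 4 8))) = false :=
    twin4 (G.comp (q := ![0,1,2,3,4,9,6,7,8,5]) (by decide)) h h'
  generalize e5 : (S 0 5 ^^ S 4 5) = f5 at *
  generalize e6 : (S 0 6 ^^ S 4 6) = f6 at *
  generalize e7 : (S 0 7 ^^ S 4 7) = f7 at *
  generalize e8 : (S 0 8 ^^ S 4 8) = f8 at *
  generalize e9 : (S 0 9 ^^ S 4 9) = f9 at *
  have key : f5 = f9 ∧ f6 = f9 ∧ f7 = f9 ∧ f8 = f9 := by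
    revert t5 t6 t7 t8 t9
    clear e5 e6 e7 e8 e9
    revert f5 f6 f7 f8 f9
    decide
  obtain ⟨k5, k6, k7, k8⟩ := key
  have hall : ∀ z : Fin 10, 5 ≤ z → (S 0 z ^^ S 4 z) = f9 := by
    intro z hz
    have : z = 5 ∨ z = 6 ∨ z = 7 ∨ z = 8 ∨ z = 9 := by
      revert hz; revert z; decide
    rcases this with rfl | rfl | rfl | rfl | rfl
    · rw [e5, k5]
    · rw [e6, k6]
    · rw [e7, k7]
    · rw [e8, k8]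
    · rw [e9]
  rw [hall x hx, hall y hy]

end Vale.Agent.P052.H23
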