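import Vale.Agent.P052.R2.H23.Core2

namespace Vale.Agent.P052.H23

variable {S : Fin 10 → Fin 10 → Bool}

theorem F4.s12 (G : Good S) {a b c d : Fin 10} (h : F4 S a b c d) : F4 S b a c d := by
  obtain ⟨h1, h2, h3, h4⟩ := h
  exact ⟨by rw [T3_swap12 G.symm, h1], by rw [T3_swap12 G.symm, h2], h4, h3⟩

theorem F4.s23 (G : Good S) {a b c d : Fin 10} (h : F4 S a b c d) : F4 S a c b d := by
  obtain ⟨h1, h2, h3, h4⟩ := h
  exact ⟨by rw [T3_swap23 G.symm, h1], h3, h2, by rw [T3_swap12 G.symm, h4]⟩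

theorem F4.s34 (G : Good S) {a b c d : Fin 10} (h : F4 S a b c d) : F4 S a b d c := by
  obtain ⟨h1, h2, h3, h4⟩ := h
  exact ⟨h2, h1, by rw [T3_swap23 G.symm, h3], by rw [T3_swap23 G.symm, h4]⟩

/-- If `a`, `b` are twins then `T3 S a x y = T3 S b x y`. -/
theorem T3_twin {a b x y : Fin 10} (h : (S a x ^^ S b x) = (S a y ^^ S b y)) :
    T3 S b x y = T3 S a x y := by
  rw [T3_diff S a b x y, h]; simp

theorem uniq_bool : ∀ k g67 g68 g78 : Bool,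
    ne4 k k g67 ((k ^^ g67) ^^ k) = true → ne4 k k g68 ((k ^^ g68) ^^ k) = true →
    ne4 k k g78 ((k ^^ g78) ^^ k) = true → ne4 g67 g68 g78 ((g67 ^^ g78) ^^ g68) = true → False := by
  decide

/-- Lemma 2: the exchange partner is unique. -/
theorem uniq (G : Good S) (h : F4 S 0 1 2 3) (h4 : F4 S 1 2 3 4) (h5 : F4 S 1 2 3 5) : False := by
  have t4 := twin G h h4
  have t5 : ∀ i j : Fin 10, 5 ≤ i → 5 ≤ j →
      (S 0 ((![0,1,2,3,5,4,6,7,8,9] : Fin 10 → Fin 10) i) ^^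
        S 5 ((![0,1,2,3,5,4,6,7,8,9] : Fin 10 → Fin 10) i)) =
      (S 0 ((![0,1,2,3,5,4,6,7,8,9] : Fin 10 → Fin 10) j) ^^
        S 5 ((![0,1,2,3,5,4,6,7,8,9] : Fin 10 → Fin 10) j)) := fun i j hi hj =>
    twin (G.comp (q := ![0,1,2,3,5,4,6,7,8,9]) (by decide)) h h5 i j hi hj
  have u67 : (S 0 6 ^^ S 4 6) = (S 0 7 ^^ S 4 7) := t4 6 7 (by decide) (by decide)
  have u68 : (S 0 6 ^^ S 4 6) = (S 0 8 ^^ S 4 8) := t4 6 8 (by decide) (by decide)
  have v67 : (S 0 6 ^^ S 5 6) = (S 0 7 ^^ S 5 7) := t5 6 7 (by decide) (by decide)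
  have v68 : (S 0 6 ^^ S 5 6) = (S 0 8 ^^ S 5 8) := t5 6 8 (by decide) (by decide)
  have k7 : T3 S 4 5 7 = T3 S 4 5 6 := by
    unfold T3; revert u67 v67
    cases S 0 6 <;> cases S 0 7 <;> cases S 4 6 <;> cases S 4 7 <;> cases S 5 6 <;>
      cases S 5 7 <;> simp
  have k8 : T3 S 4 5 8 = T3 S 4 5 6 := by
    unfold T3; revert u68 v68
    cases S 0 6 <;> cases S 0 8 <;> cases S 4 6 <;> cases S 4 8 <;> cases S 5 6 <;>
      cases S 5 8 <;> simp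
  have a1 : ne4 (T3 S 4 5 6) (T3 S 4 5 7) (T3 S 4 6 7) (T3 S 5 6 7) = true :=
    p2n G ![0,1,2,3,4,5,6,7,8,9] (by decide) h
  have a2 : ne4 (T3 S 4 5 6) (T3 S 4 5 8) (T3 S 4 6 8) (T3 S 5 6 8) = true :=
    p2n G ![0,1,2,3,4,5,6,8,7,9] (by decide) h
  have a3 : ne4 (T3 S 4 5 7) (T3 S 4 5 8) (T3 S 4 7 8) (T3 S 5 7 8) = true :=
    p2n G ![0,1,2,3,4,5,7,8,6,9] (by decide) h
  have a4 : ne4 (T3 S 4 6 7) (T3 S 4 6 8) (T3 S 4 7 8) (T3 S 6 7 8) = true :=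
    p2n G ![0,1,2,3,4,6,7,8,5,9] (by decide) h
  rw [T3_base0 S 4 5 6 7, k7] at a1
  rw [T3_base0 S 4 5 6 8, k8] at a2
  rw [T3_base0 S 4 5 7 8, k7, k8] at a3
  rw [T3_base0 S 4 6 7 8] at a4
  exact uniq_bool _ _ _ _ a1 a2 a3 a4

/-- Case I, one step. -/
theorem caseI_step (G : Good S) (h : F4 S 0 1 2 3) (h0 : F4 S 1 2 3 4) (h1 : F4 S 0 2 3 5)
    (h2 : F4 S 0 1 3 6) (h3 : F4 S 0 1 2 7) : T3 S 4 5 6 = T3 S 5 6 7 := by
  have t0 : T3 S 4 5 6 = T3 S 0 5 6 := T3_twin (twin G h h0 5 6 (by decide) (by decide))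
  have t3 : T3 S 7 5 6 = T3 S 3 5 6 :=
    T3_twin (twin (G.comp (q := ![3,0,1,2,7,5,6,4,8,9]) (by decide))
      (((h.s34 G).s23 G).s12 G) h3 5 6 (by decide) (by decide))
  have c := T3_cocycle S 0 3 5 6
  rw [h1.2.2.1, h2.2.2.1] at c
  have e : T3 S 5 6 7 = T3 S 7 5 6 := by
    rw [← T3_swap23 G.symm, T3_swap12 G.symm]
  rw [t0, e, t3]
  revert c
  cases T3 S 0 5 6 <;> cases T3 S 3 5 6 <;> simp

/-- Case I: the four exchange partners are pairwise different. -/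
theorem caseI (G : Good S) (h : F4 S 0 1 2 3) (h0 : F4 S 1 2 3 4) (h1 : F4 S 0 2 3 5)
    (h2 : F4 S 0 1 3 6) (h3 : F4 S 0 1 2 7) : False := by
  have k1 := caseI_step G h h0 h1 h2 h3
  have k2 : T3 S 5 4 6 = T3 S 4 6 7 :=
    caseI_step (G.comp (q := ![1,0,2,3,5,4,6,7,8,9]) (by decide)) (h.s12 G) h1 h0 (h2.s12 G)
      (h3.s12 G)
  have k3 : T3 S 6 4 5 = T3 S 4 5 7 :=
    caseI_step (G.comp (q := ![2,0,1,3,6,4,5,7,8,9]) (by decide)) ((h.s23 G).s12 G) h2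
      (h0.s12 G) (h1.s12 G) ((h3.s23 G).s12 G)
  rw [T3_swap12 G.symm] at k2
  rw [T3_swap12 G.symm, T3_swap23 G.symm] at k3
  exact p2 G h ⟨k3, k2, k1⟩

/-- Case II, the core. -/
theorem caseIIc (G : Good S) (h : F4 S 0 1 2 3) (h2 : F4 S 0 1 3 4)
    (h015 : T3 S 0 1 5 = false) (h045 : T3 S 0 4 5 = false)
    (h23 : ∀ x : Fin 10, 5 ≤ x → T3 S 2 3 x = false) : False := by
  have f : F4 S 0 1 4 5 := by
    have c := T3_cocycle S 0 1 4 5
    have e : T3 S 0 1 4 = false := h2.2.1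
    refine ⟨e, h015, h045, ?_⟩
    rw [e, h015, h045] at c
    simpa using c
  have b1 : ne4 (T3 S 2 3 6) (T3 S 2 3 7) (T3 S 2 6 7) (T3 S 3 6 7) = true :=
    p2n G ![0,1,4,5,2,3,6,7,8,9] (by decide) f
  have b2 : ne4 (T3 S 2 3 6) (T3 S 2 3 8) (T3 S 2 6 8) (T3 S 3 6 8) = true :=
    p2n G ![0,1,4,5,2,3,6,8,7,9] (by decide) f
  have b3 : ne4 (T3 S 2 3 7) (T3 S 2 3 8) (T3 S 2 7 8) (T3 S 3 7 8) = true :=
    p2n G ![0,1,4,5,2,3,7,8,6,9] (by decide) f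
  have b4 : ne4 (T3 S 4 6 7) (T3 S 4 6 8) (T3 S 4 7 8) (T3 S 6 7 8) = true :=
    p2n G ![0,1,2,3,4,6,7,8,5,9] (by decide) h
  have tw : ∀ i j : Fin 10, 5 ≤ i → 5 ≤ j → (S 2 i ^^ S 4 i) = (S 2 j ^^ S 4 j) := by
    intro i j hi hj
    have key := twin (G.comp (q := ![2,0,1,3,4,5,6,7,8,9]) (by decide)) ((h.s23 G).s12 G) h2 i j hi hj
    have e : ∀ i : Fin 10, 5 ≤ i → (![2,0,1,3,4,5,6,7,8,9] : Fin 10 → Fin 10) i = i := by decide
    simp only [e i hi, e j hj] at key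
    exact key
  rw [h23 6 (by decide), h23 7 (by decide), T3_base0 S 2 3 6 7, h23 6 (by decide),
    h23 7 (by decide)] at b1
  rw [h23 6 (by decide), h23 8 (by decide), T3_base0 S 2 3 6 8, h23 6 (by decide),
    h23 8 (by decide)] at b2
  rw [h23 7 (by decide), h23 8 (by decide), T3_base0 S 2 3 7 8, h23 7 (by decide),
    h23 8 (by decide)] at b3
  rw [T3_base0 S 4 6 7 8, T3_twin (tw 6 7 (by decide) (by decide)),
    T3_twin (tw 6 8 (by decide) (by decide)), T3_twin (tw 7 8 (by decide) (by decide))] at b4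
  revert b1 b2 b3 b4
  cases T3 S 2 6 7 <;> cases T3 S 2 6 8 <;> cases T3 S 2 7 8 <;> simp [ne4]

/-- Case II with the cut `01|23`. -/
theorem caseIIb (G : Good S) (h : F4 S 0 1 2 3) (k3 : F4 S 0 1 2 4) (k2 : F4 S 0 1 3 4)
    (k1 : F4 S 0 2 3 4) (k0 : F4 S 1 2 3 4)
    (h01 : T3 S 0 1 5 = false) (h23 : T3 S 2 3 5 = false) (h02 : T3 S 0 2 5 = true) : False := by
  -- twins for every vertex of `0123`
  have e : ∀ q : Fin 10 → Fin 10, (∀ i, 5 ≤ i → q i = i) → Function.Injective q →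
      F4 S (q 0) (q 1) (q 2) (q 3) → F4 S (q 1) (q 2) (q 3) (q 4) → ∀ i j, 5 ≤ i → 5 ≤ j →
      T3 S (q 4) i j = T3 S (q 0) i j := by
    intro q hq hinj g g' i j hi hj
    refine T3_twin ?_
    have key := twin (G.comp hinj) g g' i j hi hj
    simp only [hq i hi, hq j hj] at key
    exact key
  have w0 : ∀ i j, 5 ≤ i → 5 ≤ j → T3 S 4 i j = T3 S 0 i j :=
    e ![0,1,2,3,4,5,6,7,8,9] (by decide) (by decide) h k0
  have w1 : ∀ i j, 5 ≤ i → 5 ≤ j → T3 S 4 i j = T3 S 1 i j :=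
    e ![1,0,2,3,4,5,6,7,8,9] (by decide) (by decide) (h.s12 G) k1
  have w2 : ∀ i j, 5 ≤ i → 5 ≤ j → T3 S 4 i j = T3 S 2 i j :=
    e ![2,0,1,3,4,5,6,7,8,9] (by decide) (by decide) ((h.s23 G).s12 G) k2
  have w3 : ∀ i j, 5 ≤ i → 5 ≤ j → T3 S 4 i j = T3 S 3 i j :=
    e ![3,0,1,2,4,5,6,7,8,9] (by decide) (by decide) (((h.s34 G).s23 G).s12 G) k3
  have ind : ∀ a b : Fin 10, (∀ i j, 5 ≤ i → 5 ≤ j → T3 S 4 i j = T3 S a i j) →
      (∀ i j, 5 ≤ i → 5 ≤ j → T3 S 4 i j = T3 S b i j) → ∀ x, 5 ≤ x →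
      T3 S a b x = T3 S a b 5 := by
    intro a b ha hb x hx
    have c := T3_cocycle S a b x 5
    rw [← ha x 5 hx (by decide), ← hb x 5 hx (by decide)] at c
    revert c
    cases T3 S a b x <;> cases T3 S a b 5 <;> cases T3 S 4 x 5 <;> simp
  have i23 : ∀ x, 5 ≤ x → T3 S 2 3 x = false := fun x hx => by rw [ind 2 3 w2 w3 x hx, h23]
  have i01 : ∀ x, 5 ≤ x → T3 S 0 1 x = false := fun x hx => by rw [ind 0 1 w0 w1 x hx, h01]
  cases hu : T3 S 0 4 5 with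
  | false => exact caseIIc G h k2 h01 hu i23
  | true =>
    have c := T3_cocycle S 0 2 4 5
    have e24 : T3 S 0 2 4 = false := k3.2.2.1
    rw [e24, h02, hu] at c
    have h245 : T3 S 2 4 5 = false := by simpa using c
    refine caseIIc (G.comp (q := ![2,3,0,1,4,5,6,7,8,9]) (by decide))
      ((((h.s23 G).s12 G).s34 G).s23 G) ((k0.s12 G).s23 G) h23 h245 ?_
    intro x hx
    have hq : (![2,3,0,1,4,5,6,7,8,9] : Fin 10 → Fin 10) x = x := by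
      revert hx; revert x; decide
    have := i01 x hx
    show T3 S 0 1 ((![2,3,0,1,4,5,6,7,8,9] : Fin 10 → Fin 10) x) = false
    rw [hq, this]

/-- Case II: two exchange partners coincide. -/
theorem caseII (G : Good S) (h : F4 S 0 1 2 3) (k0 : F4 S 1 2 3 4) (k1 : F4 S 0 2 3 4) : False := by
  have h014 : T3 S 0 1 4 = false := by
    have c := T3_cocycle S 0 1 2 4
    have e1 : T3 S 0 1 2 = false := h.1
    have e2 : T3 S 0 2 4 = false := k1.2.1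
    have e3 : T3 S 1 2 4 = false := k0.2.1
    rw [e1, e2, e3] at c
    simpa using c
  have k2 : F4 S 0 1 3 4 := ⟨h.2.1, h014, k1.2.2.1, k0.2.2.1⟩
  have k3 : F4 S 0 1 2 4 := ⟨h.1, h014, k1.2.1, k0.2.1⟩
  obtain ⟨q012, q013, q023, q123⟩ := h
  have h : F4 S 0 1 2 3 := ⟨q012, q013, q023, q123⟩
  have c012 := T3_cocycle S 0 1 2 5
  have c013 := T3_cocycle S 0 1 3 5
  have c023 := T3_cocycle S 0 2 3 5
  rw [q012] at c012
  rw [q013] at c013
  rw [q023] at c023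
  cases t01 : T3 S 0 1 5 <;> cases t02 : T3 S 0 2 5 <;> cases t03 : T3 S 0 3 5 <;>
    rw [t01, t02] at c012 <;> rw [t01, t03] at c013 <;> rw [t02, t03] at c023
  · -- 000
    exact uniq G h k0 ⟨q123, by simpa using c012, by simpa using c013, by simpa using c023⟩
  · -- 001
    exact uniq (G.comp (q := ![3,0,1,2,4,5,6,7,8,9]) (by decide)) (((h.s34 G).s23 G).s12 G) k3
      ⟨q012, t01, t02, show T3 S 1 2 5 = false by simpa using c012⟩
  · -- 010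
    exact uniq (G.comp (q := ![2,0,1,3,4,5,6,7,8,9]) (by decide)) ((h.s23 G).s12 G) k2
      ⟨q013, t01, t03, show T3 S 1 3 5 = false by simpa using c013⟩
  · -- 011
    exact caseIIb G h k3 k2 k1 k0 t01 (by simpa using c023) t02
  · -- 100
    exact uniq (G.comp (q := ![1,0,2,3,4,5,6,7,8,9]) (by decide)) (h.s12 G) k1
      ⟨q023, t02, t03, show T3 S 2 3 5 = false by simpa using c023⟩
  · -- 101
    exact caseIIb (G.comp (q := ![0,2,1,3,4,5,6,7,8,9]) (by decide)) (h.s23 G) (k3.s23 G) k1 k2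
      (k0.s12 G) t02 (show T3 S 1 3 5 = false by simpa using c013) t01
  · -- 110
    exact caseIIb (G.comp (q := ![0,3,1,2,4,5,6,7,8,9]) (by decide)) ((h.s34 G).s23 G)
      (k2.s23 G) (k1.s23 G) k3 ((k0.s23 G).s12 G) t03 (show T3 S 1 2 5 = false by simpa using c012) t01
  · -- 111
    exact uniq G h k0 ⟨q123, by simpa using c012, by simpa using c013, by simpa using c023⟩

end Vale.Agent.P052.H23
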