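import Vale.Agent.P052.R2.H353.Defs
import Vale.Agent.P052.R2.H23.Core3

/-!
# P052, module M7: the finite part

`finite_core`: there is no two-graph `tt s` on ten colours with
* complementary triples outside a coherent 4-set have different parity,
* coherent 4-sets pairwise intersect,
* some coherent 4-set `A` in which every element can be exchanged.
-/

namespace P052D

open Vale.Agent.P052.H23

/-- Boolean version of `s`. -/
def bs (s : Fin 10 → Fin 10 → ZMod 2) (a b : Fin 10) : Bool := decide (s a b = 1)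

theorem T3_bs (s : Fin 10 → Fin 10 → ZMod 2) (a b c : Fin 10) :
    T3 (bs s) a b c = decide (tt s a b c = 1) := by
  unfold T3 tt bs
  generalize s a b = x
  generalize s b c = y
  generalize s a c = z
  revert x y z
  decide

theorem T3_bs_false (s : Fin 10 → Fin 10 → ZMod 2) (a b c : Fin 10) :
    T3 (bs s) a b c = false ↔ tt s a b c = 0 := by
  rw [T3_bs]
  generalize tt s a b c = x
  revert x
  decide

theorem bs_ne {x y : ZMod 2} (h : x + y = 1) : decide (x = 1) ≠ decide (y = 1) := by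
  revert h; revert x y; decide

theorem F4_bs_iff (s : Fin 10 → Fin 10 → ZMod 2) (a b c d : Fin 10) :
    F4 (bs s) a b c d ↔ tt s a b c = 0 ∧ tt s a b d = 0 ∧ tt s a c d = 0 ∧ tt s b c d = 0 := by
  unfold F4
  simp only [T3_bs_false]

theorem F4_of_coh {s : Fin 10 → Fin 10 → ZMod 2} {Q : Finset (Fin 10)} (h : Coh s Q)
    {a b c d : Fin 10} (ha : a ∈ Q) (hb : b ∈ Q) (hc : c ∈ Q) (hd : d ∈ Q) :
    F4 (bs s) a b c d :=
  (F4_bs_iff s a b c d).2 ⟨h a ha b hb c hc, h a ha b hb d hd, h a ha c hc d hd, h b hb c hc d hd⟩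

theorem coh_of_F4 {s : Fin 10 → Fin 10 → ZMod 2} (h0 : ∀ a, s a a = 0)
    (hs : ∀ a b, s a b = s b a) {a b c d : Fin 10} (h : F4 (bs s) a b c d) :
    Coh s {a, b, c, d} := by
  obtain ⟨h1, h2, h3, h4⟩ := (F4_bs_iff s a b c d).1 h
  have sw12 : ∀ x y z, tt s x y z = tt s y x z := by
    intro x y z; unfold tt; rw [hs x y]; ring
  have sw23 : ∀ x y z, tt s x y z = tt s x z y := by
    intro x y z; unfold tt; rw [hs y z]; ring
  have d1 : ∀ x z, tt s x x z = 0 := by
    intro x z; unfold tt; rw [h0 x, zero_add]; exact CharTwo.add_self_eq_zero _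
  have d2 : ∀ x z, tt s x z z = 0 := by
    intro x z; unfold tt; rw [h0 z, add_zero]; exact CharTwo.add_self_eq_zero _
  have d3 : ∀ x z, tt s x z x = 0 := by
    intro x z; rw [sw23]; exact d1 _ _
  intro x hx y hy z hz
  simp only [Finset.mem_insert, Finset.mem_singleton] at hx hy hz
  rcases hx with rfl | rfl | rfl | rfl <;> rcases hy with rfl | rfl | rfl | rfl <;>
    rcases hz with rfl | rfl | rfl | rfl <;>
    first
    | exact d1 _ _
    | exact d2 _ _
    | exact d3 _ _
    | assumption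
    | (rw [sw12]; assumption)
    | (rw [sw23]; assumption)
    | (rw [sw12, sw23]; assumption)
    | (rw [sw23, sw12]; assumption)
    | (rw [sw12, sw23, sw12]; assumption)

theorem card_quad {p : Fin 10 → Fin 10} (hp : Function.Injective p) (i j k l : Fin 10)
    (h : ({i, j, k, l} : Finset (Fin 10)).card = 4) :
    ({p i, p j, p k, p l} : Finset (Fin 10)).card = 4 := by
  have : ({p i, p j, p k, p l} : Finset (Fin 10)) = ({i, j, k, l} : Finset (Fin 10)).image p := by
    simp only [Finset.image_insert, Finset.image_singleton]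
  rw [this, Finset.card_image_of_injective _ hp, h]

theorem good_bs (s : Fin 10 → Fin 10 → ZMod 2) (h0 : ∀ a, s a a = 0)
    (hs : ∀ a b, s a b = s b a)
    (h4d : ∀ A : Finset (Fin 10), A.card = 4 → Coh s A → ∀ x y z x' y' z' : Fin 10,
      ({x, y, z, x', y', z'} : Finset (Fin 10)) = Aᶜ → tt s x y z + tt s x' y' z' = 1)
    (h4e : ∀ A B : Finset (Fin 10), A.card = 4 → B.card = 4 → Coh s A → Coh s B →
      ¬ Disjoint A B) : Good (bs s) where
  symm a b := by unfold bs; rw [hs a b]
  d p hp h := by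
    rw [T3_bs, T3_bs]
    refine bs_ne (h4d {p 0, p 1, p 2, p 3} (card_quad hp 0 1 2 3 (by decide))
      (coh_of_F4 h0 hs h) _ _ _ _ _ _ ?_)
    ext i
    obtain ⟨j, rfl⟩ := (Finite.injective_iff_surjective.1 hp) i
    simp only [Finset.mem_compl, Finset.mem_insert, Finset.mem_singleton, hp.eq_iff]
    revert j
    decide
  e p hp h h' := by
    refine h4e {p 0, p 1, p 2, p 3} {p 4, p 5, p 6, p 7} (card_quad hp 0 1 2 3 (by decide))
      (card_quad hp 4 5 6 7 (by decide)) (coh_of_F4 h0 hs h) (coh_of_F4 h0 hs h') ?_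
    rw [Finset.disjoint_left]
    intro i hi hi'
    obtain ⟨j, rfl⟩ := (Finite.injective_iff_surjective.1 hp) i
    simp only [Finset.mem_insert, Finset.mem_singleton, hp.eq_iff] at hi hi'
    revert hi hi'
    revert j
    decide

/-- M7: the finite part. -/
theorem finite_core (s : Fin 10 → Fin 10 → ZMod 2) (h0 : ∀ a, s a a = 0)
    (hs : ∀ a b, s a b = s b a)
    (h4d : ∀ A : Finset (Fin 10), A.card = 4 → Coh s A → ∀ x y z x' y' z' : Fin 10,
      ({x, y, z, x', y', z'} : Finset (Fin 10)) = Aᶜ → tt s x y z + tt s x' y' z' = 1)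
    (h4e : ∀ A B : Finset (Fin 10), A.card = 4 → B.card = 4 → Coh s A → Coh s B →
      ¬ Disjoint A B)
    (h4f : ∃ A : Finset (Fin 10), A.card = 4 ∧ Coh s A ∧
      ∀ a ∈ A, ∃ b, b ∉ A ∧ Coh s (insert b (A.erase a))) : False := by
  have G : Good (bs s) := good_bs s h0 hs h4d h4e
  obtain ⟨A, hA, hcoh, hf⟩ := h4f
  let e : Fin 4 → Fin 10 := fun i => A.orderEmbOfFin hA i
  have einj : Function.Injective e := (A.orderEmbOfFin hA).injective
  have emem : ∀ i, e i ∈ A := fun i => A.orderEmbOfFin_mem hA i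
  choose b hbA hb using fun i : Fin 4 => hf (e i) (emem i)
  have eb : ∀ i j, e i ≠ b j := fun i j h => hbA j (h ▸ emem i)
  -- membership in the exchanged facets
  have mem_e : ∀ i j : Fin 4, i ≠ j → e j ∈ insert (b i) (A.erase (e i)) := fun i j hij =>
    Finset.mem_insert_of_mem (Finset.mem_erase.2 ⟨fun h => hij (einj h).symm, emem j⟩)
  have mem_b : ∀ i : Fin 4, b i ∈ insert (b i) (A.erase (e i)) := fun i =>
    Finset.mem_insert_self _ _
  by_cases hinj : Function.Injective b
  · -- all exchange partners are different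
    have finj : Function.Injective (![e 0, e 1, e 2, e 3, b 0, b 1, b 2, b 3] : Fin 8 → Fin 10) := by
      have : (![e 0, e 1, e 2, e 3, b 0, b 1, b 2, b 3] : Fin 8 → Fin 10) = Fin.append e b := by
        funext i; fin_cases i <;> rfl
      rw [this, Fin.append_injective_iff]
      exact ⟨einj, hinj, fun i j => eb i j⟩
    obtain ⟨σ, hσ⟩ := Equiv.Perm.exists_extending_pair (Fin.castLE (by norm_num : 8 ≤ 10)) _
      (Fin.castLE_injective _) finj
    have s0 : σ 0 = e 0 := hσ 0
    have s1 : σ 1 = e 1 := hσ 1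
    have s2 : σ 2 = e 2 := hσ 2
    have s3 : σ 3 = e 3 := hσ 3
    have s4 : σ 4 = b 0 := hσ 4
    have s5 : σ 5 = b 1 := hσ 5
    have s6 : σ 6 = b 2 := hσ 6
    have s7 : σ 7 = b 3 := hσ 7
    have G' := G.comp σ.injective
    refine caseI G' ?_ ?_ ?_ ?_ ?_
    · show F4 (bs s) (σ 0) (σ 1) (σ 2) (σ 3)
      rw [s0, s1, s2, s3]
      exact F4_of_coh hcoh (emem _) (emem _) (emem _) (emem _)
    · show F4 (bs s) (σ 1) (σ 2) (σ 3) (σ 4)
      rw [s1, s2, s3, s4]
      exact F4_of_coh (hb 0) (mem_e 0 1 (by decide)) (mem_e 0 2 (by decide))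
        (mem_e 0 3 (by decide)) (mem_b 0)
    · show F4 (bs s) (σ 0) (σ 2) (σ 3) (σ 5)
      rw [s0, s2, s3, s5]
      exact F4_of_coh (hb 1) (mem_e 1 0 (by decide)) (mem_e 1 2 (by decide))
        (mem_e 1 3 (by decide)) (mem_b 1)
    · show F4 (bs s) (σ 0) (σ 1) (σ 3) (σ 6)
      rw [s0, s1, s3, s6]
      exact F4_of_coh (hb 2) (mem_e 2 0 (by decide)) (mem_e 2 1 (by decide))
        (mem_e 2 3 (by decide)) (mem_b 2)
    · show F4 (bs s) (σ 0) (σ 1) (σ 2) (σ 7)
      rw [s0, s1, s2, s7]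
      exact F4_of_coh (hb 3) (mem_e 3 0 (by decide)) (mem_e 3 1 (by decide))
        (mem_e 3 2 (by decide)) (mem_b 3)
  · -- two exchange partners coincide
    rw [Function.Injective] at hinj
    push Not at hinj
    obtain ⟨i, j, hij, hne⟩ := hinj
    obtain ⟨τ, hτ0, hτ1⟩ : ∃ τ : Equiv.Perm (Fin 4), τ 0 = i ∧ τ 1 = j := by
      revert hne; clear hij; revert i j; decide
    have finj : Function.Injective
        (![e (τ 0), e (τ 1), e (τ 2), e (τ 3), b i] : Fin 5 → Fin 10) := by
      have : (![e (τ 0), e (τ 1), e (τ 2), e (τ 3), b i] : Fin 5 → Fin 10) =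
          Fin.append (e ∘ τ) ![b i] := by
        funext i; fin_cases i <;> rfl
      rw [this, Fin.append_injective_iff]
      refine ⟨einj.comp τ.injective, Function.injective_of_subsingleton _, fun k l => ?_⟩
      have : (![b i] : Fin 1 → Fin 10) l = b i := by fin_cases l; rfl
      rw [this]
      exact eb _ _
    obtain ⟨σ, hσ⟩ := Equiv.Perm.exists_extending_pair (Fin.castLE (by norm_num : 5 ≤ 10)) _
      (Fin.castLE_injective _) finj
    have s0 : σ 0 = e (τ 0) := hσ 0
    have s1 : σ 1 = e (τ 1) := hσ 1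
    have s2 : σ 2 = e (τ 2) := hσ 2
    have s3 : σ 3 = e (τ 3) := hσ 3
    have s4 : σ 4 = b i := hσ 4
    have G' := G.comp σ.injective
    have t01 : τ 0 ≠ τ 1 := fun h => absurd (τ.injective h) (by decide)
    have t02 : τ 0 ≠ τ 2 := fun h => absurd (τ.injective h) (by decide)
    have t03 : τ 0 ≠ τ 3 := fun h => absurd (τ.injective h) (by decide)
    have t12 : τ 1 ≠ τ 2 := fun h => absurd (τ.injective h) (by decide)
    have t13 : τ 1 ≠ τ 3 := fun h => absurd (τ.injective h) (by decide)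
    refine caseII G' ?_ ?_ ?_
    · show F4 (bs s) (σ 0) (σ 1) (σ 2) (σ 3)
      rw [s0, s1, s2, s3]
      exact F4_of_coh hcoh (emem _) (emem _) (emem _) (emem _)
    · show F4 (bs s) (σ 1) (σ 2) (σ 3) (σ 4)
      rw [s1, s2, s3, s4, ← hτ0]
      exact F4_of_coh (hb (τ 0)) (mem_e _ _ t01) (mem_e _ _ t02) (mem_e _ _ t03) (mem_b _)
    · show F4 (bs s) (σ 0) (σ 2) (σ 3) (σ 4)
      rw [s0, s2, s3, s4, hij, ← hτ1]
      exact F4_of_coh (hb (τ 1)) (mem_e _ _ t01.symm) (mem_e _ _ t12) (mem_e _ _ t13) (mem_b _)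

end P052D
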